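import Vale.Agent.P263C90.Germ

/-!
# P263C, row HTP: the two collapse maps are homotopic over the trace
-/

open Topology Set OnePoint CategoryTheory Filter

namespace Vale.Agent.P263C90

open Vale.Agent.P263 Vale.Agent.P263A Vale.Agent.P263.FR Vale.Agent.P263C25

variable {m K : ℕ} {F : Bool → (ST.Sph m ⟶ ST.Sph K)}

/-- the ends of the unit interval -/
def tb (b : Bool) : unitInterval := cond b 1 0

theorem tb_coe (b : Bool) : ((tb b : unitInterval) : ℝ) = en b := by cases b <;> rfl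

theorem en_quarter (b : Bool) : |en b - en b| ≤ 1 / 4 := by
  rw [sub_self, abs_zero]
  norm_num

/-- the first component of the homotopy -/
theorem exists_A (T : Fam F) {δ : ℝ} (hδ : 0 < δ) :
    ∃ (s : ℝ) (A : unitInterval × OnePoint (Fin m → ℝ) → OnePoint (Fin K → ℝ)), 0 < s ∧
      Continuous A ∧ (∀ t, A (t, ∞) = ∞) ∧ (∀ v : Fin K → ℝ, s * qn v < 1 → ‖v‖ ≤ δ) ∧
      (∀ (t : unitInterval) (x : Fin m → ℝ), (x, (t : ℝ)) ∈ T.C →
        A (t, x) = Psi s ((T.g (x, t) : Fin K → ℝ) : OnePoint (Fin K → ℝ))) ∧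
      ∀ (t : unitInterval) (x : Fin m → ℝ), (x, (t : ℝ)) ∉ T.C → A (t, x) = ∞ := by
  have hg : Continuous T.g := T.smooth.continuous
  have hQ : IsCompact ((T.C ∩ {x | 0 ≤ x.2 ∧ x.2 ≤ 1}) \ T.V) :=
    (T.cC.inter_right ((isClosed_le continuous_const continuous_snd).inter
      (isClosed_le continuous_snd continuous_const))).diff T.oV
  obtain ⟨δ₀, hδ₀, hmin⟩ := hQ.exists_forall_le' (f := fun x => qn (T.g x)) (a := 0)
    (continuous_qn.comp hg).continuousOn
    fun x hx => qn_pos fun h => hx.2 (T.far x hx.1.1 hx.1.2.1 hx.1.2.2 h)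
  obtain ⟨s, hs⟩ : ∃ s : ℝ, s = max (1 / δ₀) (1 / δ ^ 2) := ⟨_, rfl⟩
  have hs0 : 1 / δ₀ ≤ s := hs ▸ le_max_left _ _
  have hs1 : 1 / δ ^ 2 ≤ s := hs ▸ le_max_right _ _
  have hsp : 0 < s := lt_of_lt_of_le (by positivity) hs0
  obtain ⟨R, hR⟩ := (T.cC.image continuous_fst).isBounded.subset_ball (0 : Fin m → ℝ)
  have hj : Continuous fun q : unitInterval × (Fin m → ℝ) => ((q.2, (q.1 : ℝ)) : (Fin m → ℝ) × ℝ) :=
    continuous_snd.prodMk (continuous_subtype_val.comp continuous_fst)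
  let G : unitInterval × (Fin m → ℝ) → OnePoint (Fin K → ℝ) :=
    cut {q | (q.2, (q.1 : ℝ)) ∈ T.C}
      fun q => Psi s ((T.g (q.2, q.1) : Fin K → ℝ) : OnePoint (Fin K → ℝ))
  have hG : Continuous G := by
    refine continuous_cut (U := {q : unitInterval × (Fin m → ℝ) | (q.2, (q.1 : ℝ)) ∈ T.V})
      (T.cC.isClosed.preimage hj)
      (T.oV.preimage hj) (fun q hq => T.sub hq) ?_ fun q hq hV => Psi_of_le ?_
    · exact ContinuousOn.psi continuousOn_const
        (OnePoint.continuous_coe.comp (hg.comp hj)).continuousOn fun _ _ => hsp.le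
    · have h2 : δ₀ ≤ qn (T.g (q.2, q.1)) := hmin _ ⟨⟨hq, q.1.2.1, q.1.2.2⟩, hV⟩
      have h4 : 1 = 1 / δ₀ * δ₀ := by field_simp
      rw [h4]
      exact mul_le_mul hs0 h2 hδ₀.le hsp.le
  have hGn : ∀ (t : unitInterval) (x : Fin m → ℝ), (x, (t : ℝ)) ∉ T.C → G (t, x) = ∞ :=
    fun t x h => cut_of_notMem (C := {q : unitInterval × (Fin m → ℝ) | (q.2, (q.1 : ℝ)) ∈ T.C}) h
  refine ⟨s, extC (Metric.closedBall 0 R) G, hsp, continuous_extC (isCompact_closedBall 0 R)
    Metric.isClosed_closedBall Metric.isOpen_ball Metric.ball_subset_closedBall hG.continuousOn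
    fun t x _ hx => hGn t x fun h => hx (hR ⟨_, h, rfl⟩), fun _ => rfl, fun v hv => ?_,
    fun t x hx => ?_, fun t x hx => ?_⟩
  · have h1 : 1 / δ ^ 2 * qn v ≤ 1 :=
      (mul_le_mul_of_nonneg_right hs1 (qn_nonneg _)).trans hv.le
    rw [one_div, inv_mul_le_iff₀ (by positivity), mul_one] at h1
    exact norm_le_of_qn h1 hδ.le
  · rw [extC_of_mem (Metric.ball_subset_closedBall (hR ⟨_, hx, rfl⟩))]
    exact cut_of_mem (C := {q : unitInterval × (Fin m → ℝ) | (q.2, (q.1 : ℝ)) ∈ T.C}) hx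
  · by_cases h : x ∈ Metric.closedBall (0 : Fin m → ℝ) R
    · rw [extC_of_mem h]
      exact hGn t x hx
    · exact extC_of_notMem h

/-- the end of the family is regular -/
theorem surj_end (T : Fam F) (b : Bool) (hR : Regular (F b)) {x : Fin m → ℝ} (hx : x ∈ T.O b)
    (h0 : T.g (x, en b) = 0) : Function.Surjective (fderiv ℝ (fun y => T.g (y, en b)) x) := by
  obtain ⟨O, f, hO, -, hFO, hreg⟩ := hR
  have h1 : F b (ST.at' x) = ST.at' 0 := by rw [(T.eqO b x _ hx (en_quarter b)).2, h0]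
  have h2 : (fun y => T.g (y, en b)) =ᶠ[𝓝 x] f := by
    filter_upwards [(T.oO b).mem_nhds hx, hO.mem_nhds (hreg x h1).1] with y hy hy'
    exact at'_inj ((T.eqO b y _ hy (en_quarter b)).2.symm.trans (hFO y hy'))
  rw [h2.fderiv_eq]
  exact (hreg x h1).2

theorem htp : HTP := by
  intro m K F T hF hR _ _ c cN hc hcN P _ _ _ ι δ ρ hδ hρ
  obtain ⟨s, A, hs, hA, hAi, hsδ, hA1, hA2⟩ := exists_A T hδ
  have hg : Continuous T.g := T.smooth.continuous
  have hne : ∀ q : unitInterval × OnePoint (Fin m → ℝ), A q ≠ ∞ →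
      q.2 ≠ ∞ ∧ (crd q.2, (q.1 : ℝ)) ∈ T.Nb δ := by
    rintro ⟨t, z⟩ hq
    induction z using OnePoint.rec with
    | infty => exact absurd (hAi t) hq
    | coe x =>
      have hx : (x, (t : ℝ)) ∈ T.C := by
        by_contra h
        exact hq (hA2 t x h)
      rw [hA1 t x hx] at hq
      obtain ⟨v, hv, h1⟩ := Psi_ne hq
      rw [← OnePoint.coe_injective hv] at h1
      exact ⟨OnePoint.coe_ne_infty _, hx, t.2.1, t.2.2, hsδ _ h1⟩
  let S : Set (unitInterval × OnePoint (Fin m → ℝ)) := {q | A q ≠ ∞}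
  let p : S → P := fun q => ρ ⟨(crd q.1.2, (q.1.1 : ℝ)), (hne q.1 q.2).2⟩
  have hp : Continuous p := by
    refine ρ.continuous.comp (Continuous.subtype_mk (Continuous.prodMk ?_
      (continuous_subtype_val.comp (continuous_fst.comp continuous_subtype_val))) _)
    rw [continuous_iff_continuousAt]
    intro q
    exact ContinuousAt.comp (g := crd) (f := fun q : S => q.1.2)
      (continuousAt_crd (hne q.1 q.2).1) (continuous_snd.comp continuous_subtype_val).continuousAt
  let e : Bool → C(OnePoint (Fin m → ℝ), OnePoint ((Fin K → ℝ) × P)) := fun b =>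
    ⟨fun z => pairS A S p (tb b, z),
      (continuous_pairS hA (fun _ h => h) hp).comp (Continuous.prodMk_right _)⟩
  have H1 : (e false).HomotopicRel (e true) {∞} :=
    homotopicRel_pairS hA (fun _ h => h) hp hAi (fun _ => rfl) fun _ => rfl
  have H2 : ∀ b, ((thm (K := K) (ι b)).comp (cN b)).HomotopicRel (e b) {∞} := by
    intro b
    have hfst : ∀ z, fstT (cN b z) = F b z := fun z =>
      (congrArg fstT (hcN b z)).symm.trans ((hc b).1 z)
    have hf : Continuous fun y : Fin m → ℝ => T.g (y, en b) := hg.comp (Continuous.prodMk_left _)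
    have hq : Continuous fun y : Fin m → ℝ => s * qn (T.g (y, en b)) :=
      continuous_const.mul (continuous_qn.comp hf)
    obtain ⟨W, hW⟩ : ∃ W : Set (Fin m → ℝ), W = {x | x ∈ T.O b ∧ s * qn (T.g (x, en b)) < 1} :=
      ⟨_, rfl⟩
    have hW1 : ∀ x ∈ W, x ∈ T.O b ∧ s * qn (T.g (x, en b)) < 1 := fun x hx => by
      rw [hW] at hx
      exact hx
    have hWF : ∀ x ∈ W, F b (ST.at' x) = ST.at' (T.g (x, en b)) := fun x hx =>
      (T.eqO b x _ (hW1 x hx).1 (en_quarter b)).2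
    have hWC : ∀ x ∈ W, (x, en b) ∈ T.C := fun x hx =>
      T.sub (T.eqO b x _ (hW1 x hx).1 (en_quarter b)).1
    have hZW : ∀ x, F b (ST.at' x) = ST.at' 0 → x ∈ W ∧ T.g (x, en b) = 0 := fun x hx => by
      have h1 : x ∈ T.O b := T.zO b ⟨x, hx⟩
      have h2 : T.g (x, en b) = 0 := at'_inj ((T.eqO b x _ h1 (en_quarter b)).2.symm.trans hx)
      refine ⟨?_, h2⟩
      rw [hW]
      refine ⟨h1, ?_⟩
      show s * qn (T.g (x, en b)) < 1
      rw [h2, qn_zero, mul_zero]
      exact one_pos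
    have hZ : IsCompact {x | x ∈ W ∧ T.g (x, en b) = 0} := by
      have h1 : {x | x ∈ W ∧ T.g (x, en b) = 0} = {v | F b (ST.at' v) = ST.at' 0} := by
        ext x
        exact ⟨fun h => by show F b (ST.at' x) = ST.at' 0; rw [hWF x h.1, h.2], hZW x⟩
      rw [h1]
      exact isCompact_Z (hF b)
    have hcne : ∀ x ∈ W, cN b (x : OnePoint (Fin m → ℝ)) ≠ ∞ := fun x hx h => by
      have h1 := hfst (x : OnePoint (Fin m → ℝ))
      rw [h] at h1
      exact OnePoint.infty_ne_coe _ (h1.trans (hWF x hx))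
    have hen : 0 ≤ en b ∧ en b ≤ 1 := tb_coe b ▸ (tb b).2
    have hNb : ∀ x ∈ W, (x, en b) ∈ T.Nb δ := fun x hx =>
      ⟨hWC x hx, hen.1, hen.2, hsδ _ (hW1 x hx).2⟩
    let a : C(W, P) := ⟨fun x => ι b (sndT (cN b) ⟨(x.1 : OnePoint (Fin m → ℝ)), hcne _ x.2⟩),
      (ι b).continuous.comp ((continuous_sndT (cN b).continuous).comp
        ((OnePoint.continuous_coe.comp continuous_subtype_val).subtype_mk _))⟩
    let a' : C(W, P) := ⟨fun x => ρ ⟨(x.1, en b), hNb _ x.2⟩, ρ.continuous.comp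
      (((Continuous.prodMk_left _).comp continuous_subtype_val).subtype_mk _)⟩
    refine germ_eq (f := fun y => T.g (y, en b)) ((T.smooth.of_le
      (WithTop.coe_le_coe.2 (le_top : (1 : ℕ∞) ≤ ⊤))).comp (contDiff_id.prodMk contDiff_const))
      (W := W) (hW ▸ (T.oO b).inter (isOpen_lt hq continuous_const)) hZ
      (fun x hx h0 => surj_end T b (hR b) (hW1 x hx).1 h0)
      (l := fun x => (1 - s * qn (T.g (x, en b)))⁻¹)
      ((continuous_const.sub hq).continuousOn.inv₀ fun x hx => (sub_pos.2 (hW1 x hx).2).ne')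
      (fun x hx => inv_pos.2 (sub_pos.2 (hW1 x hx).2)) a a' (fun x h0 => ?_) (fun x => ?_)
      (fun x => ?_) (fun z x hz => ?_) (fun z x hz => ?_) ?_ (pairS_infty (hAi _))
    · have h1 : F b (ST.at' x.1) = ST.at' 0 := by rw [hWF x.1 x.2, h0]
      obtain ⟨w, hw⟩ := exists_coe_sndT (cN b) ⟨(x.1 : OnePoint (Fin m → ℝ)), hcne _ x.2⟩
      have h2 := ((hc b).2 ⟨x.1, h1⟩).symm.trans ((hcN b _).trans hw)
      have h3 := congrArg Prod.snd (OnePoint.coe_injective h2)
      exact (congrArg (ι b) h3).symm.trans (hρ b ⟨x.1, h1⟩ ⟨(x.1, en b), hNb _ x.2⟩ rfl).symm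
    · obtain ⟨w, hw⟩ := exists_coe_sndT (cN b) ⟨(x.1 : OnePoint (Fin m → ℝ)), hcne _ x.2⟩
      have hw' : cN b (x.1 : OnePoint (Fin m → ℝ)) = _ := hw
      have h2 : w = T.g (x.1, en b) := by
        have h3 := hfst (x.1 : OnePoint (Fin m → ℝ))
        rw [hw'] at h3
        exact at'_inj (h3.trans (hWF x.1 x.2))
      show thm (ι b) (cN b (x.1 : OnePoint (Fin m → ℝ))) = _
      rw [hw', h2]
      rfl
    · have h1 : A (tb b, (x.1 : OnePoint (Fin m → ℝ))) =
          (((1 - s * qn (T.g (x.1, en b)))⁻¹ • T.g (x.1, en b) : Fin K → ℝ) :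
            OnePoint (Fin K → ℝ)) := by
        rw [hA1 _ _ (by rw [tb_coe]; exact hWC x.1 x.2), tb_coe, Psi_of_lt (hW1 x.1 x.2).2]
      have h2 : (tb b, (x.1 : OnePoint (Fin m → ℝ))) ∈ S := by
        show A _ ≠ ∞
        rw [h1]
        exact OnePoint.coe_ne_infty _
      have h3 : p ⟨_, h2⟩ = a' x :=
        congrArg ρ (Subtype.ext (congrArg (Prod.mk x.1) (tb_coe b)))
      show pairS A S p (tb b, (x.1 : OnePoint (Fin m → ℝ))) = _
      rw [pairS_of_mem h2, h1, h3, prT_coe]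
    · have h1 : fstT (thm (ι b) (cN b z)) = fstT (cN b z) := by
        induction cN b z using OnePoint.rec <;> rfl
      have h2 : F b z = ST.at' 0 := (hfst z).symm.trans (h1.symm.trans (congrArg fstT hz))
      induction z using OnePoint.rec with
      | infty => exact absurd ((hF b).symm.trans h2) (OnePoint.infty_ne_coe _)
      | coe y => exact ⟨y, (hZW y h2).1, rfl⟩
    · have h1 : A (tb b, z) = ((0 : Fin K → ℝ) : OnePoint (Fin K → ℝ)) :=
        (map_fst_pairS (p := p) (fun _ h => h) (tb b, z)).symm.trans (congrArg fstT hz)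
      induction z using OnePoint.rec with
      | infty => exact absurd ((hAi _).symm.trans h1) (OnePoint.infty_ne_coe _)
      | coe y =>
        have hy : (y, ((tb b : unitInterval) : ℝ)) ∈ T.C := by
          by_contra h
          exact OnePoint.infty_ne_coe _ ((hA2 _ y h).symm.trans h1)
        rw [hA1 _ y hy, Psi_eq_zero, tb_coe] at h1
        rw [tb_coe] at hy
        exact ⟨y, (hZW y (T.zero b y _ hy (en_quarter b) (OnePoint.coe_injective h1))).1, rfl⟩
    · show thm (ι b) (cN b ∞) = ∞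
      rw [show cN b ∞ = ∞ from (hcN b _).symm.trans (collapse_pt (hF b) (hc b))]
      rfl
  exact ((H2 false).trans H1).trans (H2 true).symm

end Vale.Agent.P263C90
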