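import Vale.Agent.P263C25.Rows

/-!
# P263C, row HTP, part one: two maps with the same regular zeros and the same values there
-/

open Topology Set OnePoint

namespace Vale.Agent.P263C90

open Vale.Agent.P263 Vale.Agent.P263A Vale.Agent.P263.FR

/-- the straight line homotopy inside a set -/
theorem htpy_seg {X E : Type} [TopologicalSpace X] [NormedAddCommGroup E] [NormedSpace ℝ E]
    {W : Set E} (u v : C(X, W)) (h : ∀ x, segment ℝ (u x).1 (v x).1 ⊆ W) : u.Homotopic v := by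
  have hm : ∀ q : unitInterval × X,
      (1 - (q.1 : ℝ)) • (u q.2).1 + (q.1 : ℝ) • (v q.2).1 ∈ W := fun q =>
    h q.2 ⟨1 - (q.1 : ℝ), q.1, sub_nonneg.2 q.1.2.2, q.1.2.1, sub_add_cancel _ _, rfl⟩
  have ht : Continuous fun q : unitInterval × X => (q.1 : ℝ) :=
    continuous_subtype_val.comp continuous_fst
  refine ⟨⟨⟨fun q => ⟨_, hm q⟩, Continuous.subtype_mk (((continuous_const.sub ht).smul
    (continuous_subtype_val.comp (u.continuous.comp continuous_snd))).add (ht.smul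
    (continuous_subtype_val.comp (v.continuous.comp continuous_snd)))) _⟩, fun x => ?_,
    fun x => ?_⟩⟩
  · apply Subtype.ext
    show (1 - ((0 : unitInterval) : ℝ)) • (u x).1 + ((0 : unitInterval) : ℝ) • (v x).1 = (u x).1
    rw [Set.Icc.coe_zero, sub_zero, one_smul, zero_smul, add_zero]
  · apply Subtype.ext
    show (1 - ((1 : unitInterval) : ℝ)) • (u x).1 + ((1 : unitInterval) : ℝ) • (v x).1 = (v x).1
    rw [Set.Icc.coe_one, sub_self, zero_smul, one_smul, zero_add]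

/-- **two maps with the same regular zeros, which agree at the zeros, are homotopic** -/
theorem germ_eq {m K : ℕ} {P : Type} [TopologicalSpace P] [CompactSpace P]
    {c c' : C(OnePoint (Fin m → ℝ), OnePoint ((Fin K → ℝ) × P))}
    {f : (Fin m → ℝ) → (Fin K → ℝ)} (hf : ContDiff ℝ 1 f) {W : Set (Fin m → ℝ)} (hW : IsOpen W)
    (hZ : IsCompact {x | x ∈ W ∧ f x = 0})
    (hs : ∀ x ∈ W, f x = 0 → Function.Surjective (fderiv ℝ f x))
    {l : (Fin m → ℝ) → ℝ} (hl : ContinuousOn l W) (hl0 : ∀ x ∈ W, 0 < l x)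
    (a a' : C(W, P)) (ha : ∀ x : W, f x.1 = 0 → a x = a' x)
    (h0 : ∀ x : W, c (x.1 : OnePoint (Fin m → ℝ)) = ((f x.1, a x) : (Fin K → ℝ) × P))
    (h1 : ∀ x : W, c' (x.1 : OnePoint (Fin m → ℝ)) = ((l x.1 • f x.1, a' x) : (Fin K → ℝ) × P))
    (hc : ∀ z x, c z = (((0 : Fin K → ℝ), x) : (Fin K → ℝ) × P) → ∃ y ∈ W, z = (y : Fin m → ℝ))
    (hc' : ∀ z x, c' z = (((0 : Fin K → ℝ), x) : (Fin K → ℝ) × P) → ∃ y ∈ W, z = (y : Fin m → ℝ))
    (hi : c ∞ = ∞) (hi' : c' ∞ = ∞) : c.HomotopicRel c' {∞} := by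
  obtain ⟨C, hC, hZC, hCW⟩ := exists_compact_between hZ hW fun x hx => hx.1
  have hz : ∀ x ∈ C, f x = 0 → x ∈ interior C := fun x hx h => hZC ⟨hCW hx, h⟩
  obtain ⟨δ, hδ, r, hrc, hr, -, -⟩ := exists_retraction hf isOpen_interior hC interior_subset hz
    (fun x hx h => hs x (hCW (interior_subset hx)) h) hW
    (fun x hx _ => hCW (interior_subset hx))
  obtain ⟨A, hA⟩ : ∃ A : Set (Fin m → ℝ), A = {x | x ∈ C ∧ ‖f x‖ ≤ δ} := ⟨_, rfl⟩
  have hAc : IsCompact A := by
    rw [hA]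
    exact hC.inter_right (isClosed_le hf.continuous.norm continuous_const)
  obtain ⟨O, hO⟩ : ∃ O : Set (OnePoint (Fin m → ℝ)), O = (↑) '' A := ⟨_, rfl⟩
  have hOc : IsClosed O := by
    rw [hO]
    exact OnePoint.isClosed_image_coe.2 ⟨hAc.isClosed, hAc⟩
  have hmem : ∀ z ∈ O, ∃ x : Fin m → ℝ, z = x ∧ x ∈ C ∧ ‖f x‖ ≤ δ := by
    intro z hz
    rw [hO, hA] at hz
    obtain ⟨x, hx, rfl⟩ := hz
    exact ⟨x, rfl, hx⟩
  have hmem' : ∀ z ∈ O, crd z ∈ C ∧ ‖f (crd z)‖ ≤ δ := by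
    intro z hz
    obtain ⟨x, rfl, hx⟩ := hmem z hz
    exact hx
  have hint : ∀ x ∈ W, f x = 0 → (x : OnePoint (Fin m → ℝ)) ∈ interior O := by
    intro x hx h
    have h2 : IsOpen ((↑) '' {y | y ∈ interior C ∧ ‖f y‖ < δ} : Set (OnePoint (Fin m → ℝ))) :=
      OnePoint.isOpen_image_coe.2 (isOpen_interior.inter
        (isOpen_lt hf.continuous.norm continuous_const))
    refine interior_maximal ?_ h2 ⟨x, ⟨hZC ⟨hx, h⟩, ?_⟩, rfl⟩
    · rw [hO, hA]
      exact Set.image_mono fun y hy => ⟨interior_subset hy.1, hy.2.le⟩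
    · rw [h, norm_zero]
      exact hδ
  have hcrd : Continuous fun z : O => crd z.1 := by
    rw [continuous_iff_continuousAt]
    intro z
    obtain ⟨x, hx, -⟩ := hmem _ z.2
    exact ContinuousAt.comp (g := crd) (f := fun z : O => z.1)
      (continuousAt_crd (by rw [hx]; exact OnePoint.coe_ne_infty _))
      continuous_subtype_val.continuousAt
  let u : C(O, W) := ⟨fun z => ⟨crd z.1, hCW (hmem' _ z.2).1⟩, hcrd.subtype_mk _⟩
  let v : C(O, W) := ⟨fun z => ⟨r (crd z.1),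
    hCW (interior_subset (hr _ (hmem' _ z.2).1 (hmem' _ z.2).2).1)⟩,
    (hrc.comp_continuous hcrd fun z => hmem' _ z.2).subtype_mk _⟩
  have huv : u.Homotopic v := htpy_seg u v fun z => (hr _ (hmem' _ z.2).1 (hmem' _ z.2).2).2.2
  have hav : a.comp v = a'.comp v := by
    ext z
    exact ha (v z) (hr _ (hmem' _ z.2).1 (hmem' _ z.2).2).2.1
  have h2 : (a.comp u).Homotopic (a'.comp u) := by
    refine ((ContinuousMap.Homotopic.refl a).comp huv).trans ?_
    rw [hav]
    exact (ContinuousMap.Homotopic.refl a').comp huv.symm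
  obtain ⟨G⟩ := h2
  have hq : Continuous fun q : {q : unitInterval × OnePoint (Fin m → ℝ) | q.2 ∈ O} =>
      ((q.1.1, ⟨q.1.2, q.2⟩) : unitInterval × O) :=
    (continuous_fst.comp continuous_subtype_val).prodMk
      ((continuous_snd.comp continuous_subtype_val).subtype_mk _)
  have hcq : Continuous fun q : {q : unitInterval × OnePoint (Fin m → ℝ) | q.2 ∈ O} =>
      crd q.1.2 := hcrd.comp (continuous_snd.comp hq)
  have ht : Continuous fun q : {q : unitInterval × OnePoint (Fin m → ℝ) | q.2 ∈ O} =>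
      ((q.1.1 : ℝ)) := continuous_subtype_val.comp (continuous_fst.comp continuous_subtype_val)
  refine germT hOc (fun q => ((1 - (q.1 : ℝ)) + (q.1 : ℝ) * l (crd q.2)) • f (crd q.2)) ?_
    (fun q => G (q.1.1, ⟨q.1.2, q.2⟩)) (G.continuous.comp hq) ?_ ?_ ?_ ?_ ?_ ?_ ?_
  · rw [continuousOn_iff_continuous_domRestrict]
    exact Continuous.smul ((continuous_const.sub ht).add (ht.mul
      (hl.comp_continuous hcq fun q => hCW (hmem' _ q.2).1))) (hf.continuous.comp hcq)
  · intro z hz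
    obtain ⟨x, rfl, hx, -⟩ := hmem z hz
    rw [h0 ⟨x, hCW hx⟩, G.apply_zero]
    show _ = (((((1 - ((0 : unitInterval) : ℝ)) + ((0 : unitInterval) : ℝ) * l x) • f x,
      a ⟨x, hCW hx⟩) : (Fin K → ℝ) × P) : OnePoint ((Fin K → ℝ) × P))
    rw [Set.Icc.coe_zero, sub_zero, zero_mul, add_zero, one_smul]
  · intro z hz
    obtain ⟨x, rfl, hx, -⟩ := hmem z hz
    rw [h1 ⟨x, hCW hx⟩, G.apply_one]
    show _ = (((((1 - ((1 : unitInterval) : ℝ)) + ((1 : unitInterval) : ℝ) * l x) • f x,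
      a' ⟨x, hCW hx⟩) : (Fin K → ℝ) × P) : OnePoint ((Fin K → ℝ) × P))
    rw [Set.Icc.coe_one, sub_self, one_mul, zero_add]
  · intro τ z hz h
    obtain ⟨x, rfl, hx, -⟩ := hmem z hz
    refine hint x (hCW hx) ?_
    rcases smul_eq_zero.1 h with h3 | h3
    · exfalso
      have h4 : (1 - (τ : ℝ)) + (τ : ℝ) * l x = 0 := h3
      have h5 := hl0 x (hCW hx)
      have h6 := τ.2.1
      have h7 := τ.2.2
      rcases h6.eq_or_lt with h8 | h8
      · rw [← h8] at h4
        linarith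
      · have := mul_pos h8 h5
        linarith
    · exact h3
  · intro z x hz
    obtain ⟨y, hy, rfl⟩ := hc z x hz
    have h3 := OnePoint.coe_injective ((h0 ⟨y, hy⟩).symm.trans hz)
    exact hint y hy (congrArg Prod.fst h3)
  · intro z x hz
    obtain ⟨y, hy, rfl⟩ := hc' z x hz
    have h3 := OnePoint.coe_injective ((h1 ⟨y, hy⟩).symm.trans hz)
    have h4 : l y • f y = 0 := congrArg Prod.fst h3
    exact hint y hy ((smul_eq_zero.1 h4).resolve_left (hl0 y hy).ne')
  · rintro z rfl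
    exact hi
  · rintro z rfl
    exact hi'

end Vale.Agent.P263C90
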