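import Vale.Agent.P263C25.Rows

/-!
# P263C, row PHI: the form is computed by the generalised functional square
-/

open Topology Set OnePoint CategoryTheory

namespace Vale.Agent.P263C90

open Vale.Agent.P263 Vale.Agent.P263A Vale.Agent.P263.FR Vale.Agent.P263.E Vale.Agent.P263.G2
  Vale.Agent.P263.TJ Vale.Agent.P263C25

theorem phi_row (hconv : P263B15.CONV) : PHI := by
  intro q i F hq hF hR _ _ c cN hinf hc hcN u hu du
  have hfin := finite_coh_reg hF hR q
  have hqd : q < q + q := by omega
  let Q : QF (Mfd F) q := QF.ofC (d := q + q) (i := i) hq hqd cN hinf (nondeg_reg hq hF hR hc hcN)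
  have hφ : ∀ x : Coh q (Mfd F), phi c x = Q.phi x := by
    intro x
    by_cases hx : PhiZero c x
    · obtain ⟨u, du, hu, rfl⟩ := exists_cl x
      rw [phi_eq_zero hx]
      refine Eq.trans ?_ (Q.phi_cl u hu du).symm
      exact (Phi_of_phiZeroT hq hqd hinf hcN hx hu du rfl).symm
    · rw [phi_eq_one hx]
      refine ((z2 (Q.phi x)).resolve_left fun h0 => hx ?_).symm
      by_cases h1 : ∃ x₀, Q.phi x₀ = 1
      · obtain ⟨x₀, h1⟩ := h1
        obtain ⟨u, du, hu, rfl⟩ := exists_cl x
        obtain ⟨v, dv, hv, rfl⟩ := exists_cl x₀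
        have h2 := conv_of hconv (Mfd F) q i hq cN hinf u v hu du hv dv
          ((Q.phi_cl v hv dv).symm.trans h1) ((Q.phi_cl u hu du).symm.trans h0)
        have e : c = TopCat.ofHom cN := by
          ext w
          exact hcN w
        rw [e]
        exact h2
      · have h2 : ∀ y, Q.phi y = 0 := fun y => (z2 _).resolve_right fun h => h1 ⟨y, h⟩
        have h3 : x = 0 := Q.bil_nonsing x fun y => by
          have h4 := Q.phi_add y x
          rw [h2, h2, h2, zero_add, zero_add] at h4
          exact h4.symm
        rw [h3]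
        exact phiZero_zero c (collapse_pt hF hc)
  exact (hφ _).trans (Q.phi_cl u hu du)

end Vale.Agent.P263C90
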